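import Mathlib
import Vale.Agent.Lib.P137.Defs

/-!
# P137-F (pool job 369, second copy by helper59): the radial integral is at most the radial
variation, for nonincreasing profiles tending to zero.
-/

namespace Vale.Agent.Lib.P137.H59

open MeasureTheory

/-- Abel summation. -/
theorem abel_id (A f : ℕ → ℝ) (n : ℕ) :
    ∑ j ∈ Finset.range n, f j * (A (j + 1) - A j)
      = ∑ j ∈ Finset.range n, A (j + 1) * (f j - f (j + 1)) + A n * f n - A 0 * f 0 := by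
  induction n with
  | zero => simp
  | succ n ih =>
    rw [Finset.sum_range_succ, Finset.sum_range_succ, ih]
    ring

/-- The boundary term is controlled by the tail of the variation sums. -/
theorem tail_bound (A f : ℕ → ℝ) (hA : Monotone A) (hf : Antitone f) (n N : ℕ) (hnN : n ≤ N) :
    A n * (f n - f N) ≤ ∑ j ∈ Finset.range N, A j * (f j - f (j + 1))
      - ∑ j ∈ Finset.range n, A j * (f j - f (j + 1)) := by
  induction N, hnN using Nat.le_induction with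
  | base => simp
  | succ N hN ih =>
    rw [Finset.sum_range_succ]
    have h1 : A n ≤ A N := hA hN
    have h2 : 0 ≤ f N - f (N + 1) := sub_nonneg.mpr (hf (Nat.le_succ N))
    have h3 := mul_le_mul_of_nonneg_right h1 h2
    linarith [ih, h3]

/-- The upper sums of a geometric partition are bounded by the variation sums. -/
theorem real_bound (A f : ℕ → ℝ) (c : ℝ) (hc : 1 ≤ c) (hA0 : ∀ j, 0 ≤ A j)
    (hAs : ∀ j, A (j + 1) = c * A j) (hf : Antitone f) (hf0 : ∀ j, 0 ≤ f j) (n N : ℕ)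
    (hnN : n ≤ N) :
    ∑ j ∈ Finset.range n, f j * (A (j + 1) - A j)
      ≤ c * ∑ j ∈ Finset.range N, A j * (f j - f (j + 1)) + A n * f N := by
  have hAm : Monotone A := monotone_nat_of_le_succ (fun j => by
    rw [hAs]
    nlinarith [hA0 j])
  have hterm : ∀ j, 0 ≤ A j * (f j - f (j + 1)) := fun j =>
    mul_nonneg (hA0 j) (sub_nonneg.mpr (hf (Nat.le_succ j)))
  have hS : ∑ j ∈ Finset.range n, A j * (f j - f (j + 1))
      ≤ ∑ j ∈ Finset.range N, A j * (f j - f (j + 1)) :=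
    Finset.sum_le_sum_of_subset_of_nonneg (Finset.range_mono hnN) (fun j _ _ => hterm j)
  have htail := tail_bound A f hAm hf n N hnN
  have hab := abel_id A f n
  have hshift : ∑ j ∈ Finset.range n, A (j + 1) * (f j - f (j + 1))
      = c * ∑ j ∈ Finset.range n, A j * (f j - f (j + 1)) := by
    rw [Finset.mul_sum]
    refine Finset.sum_congr rfl (fun j _ => ?_)
    rw [hAs]
    ring
  rw [hab, hshift]
  have h0 : 0 ≤ A 0 * f 0 := mul_nonneg (hA0 0) (hf0 0)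
  have h4 := mul_le_mul_of_nonneg_left hS (sub_nonneg.mpr hc)
  linarith [htail, h4, h0]

theorem lintegral_Ioc_pow (m : ℕ) (a b : ℝ) (ha : 0 ≤ a) (hab : a ≤ b) :
    ((m + 1 : ℕ) : ENNReal) * ∫⁻ t in Set.Ioc a b, ENNReal.ofReal (t ^ m)
      = ENNReal.ofReal (b ^ (m + 1) - a ^ (m + 1)) := by
  have hint : IntegrableOn (fun t : ℝ => t ^ m) (Set.Ioc a b) volume :=
    (continuous_pow m).integrableOn_Ioc
  have hnn : 0 ≤ᵐ[volume.restrict (Set.Ioc a b)] fun t : ℝ => t ^ m := by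
    refine (ae_restrict_iff' measurableSet_Ioc).2 (Filter.Eventually.of_forall fun t ht => ?_)
    exact pow_nonneg (le_trans ha ht.1.le) m
  rw [← ofReal_integral_eq_lintegral_ofReal hint hnn]
  rw [← intervalIntegral.integral_of_le hab, integral_pow]
  rw [← ENNReal.ofReal_natCast (m + 1), ← ENNReal.ofReal_mul (Nat.cast_nonneg _)]
  congr 1
  push_cast
  field_simp

theorem interval_bound (m : ℕ) (F : ℝ → ℝ) (hF : Antitone F) (a b : ℝ)
    (ha : 0 ≤ a) (hab : a ≤ b) :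
    ((m + 1 : ℕ) : ENNReal) * ∫⁻ t in Set.Ioc a b, ENNReal.ofReal (t ^ m) * ENNReal.ofReal (F t)
      ≤ ENNReal.ofReal (F a * (b ^ (m + 1) - a ^ (m + 1))) := by
  have h1 : ∫⁻ t in Set.Ioc a b, ENNReal.ofReal (t ^ m) * ENNReal.ofReal (F t)
      ≤ ∫⁻ t in Set.Ioc a b, ENNReal.ofReal (t ^ m) * ENNReal.ofReal (F a) := by
    refine setLIntegral_mono' measurableSet_Ioc (fun t ht => ?_)
    gcongr
    exact hF ht.1.le
  have h2 : ∫⁻ t in Set.Ioc a b, ENNReal.ofReal (t ^ m) * ENNReal.ofReal (F a)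
      = (∫⁻ t in Set.Ioc a b, ENNReal.ofReal (t ^ m)) * ENNReal.ofReal (F a) := by
    rw [lintegral_mul_const]
    exact ENNReal.measurable_ofReal.comp (measurable_id.pow_const m)
  calc ((m + 1 : ℕ) : ENNReal)
        * ∫⁻ t in Set.Ioc a b, ENNReal.ofReal (t ^ m) * ENNReal.ofReal (F t)
      ≤ ((m + 1 : ℕ) : ENNReal)
        * ((∫⁻ t in Set.Ioc a b, ENNReal.ofReal (t ^ m)) * ENNReal.ofReal (F a)) := by
        rw [← h2]
        gcongr
    _ = ENNReal.ofReal (b ^ (m + 1) - a ^ (m + 1)) * ENNReal.ofReal (F a) := by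
        rw [← mul_assoc, lintegral_Ioc_pow m a b ha hab]
    _ = ENNReal.ofReal (F a * (b ^ (m + 1) - a ^ (m + 1))) := by
        rw [mul_comm (F a), ENNReal.ofReal_mul (sub_nonneg.mpr (pow_le_pow_left₀ ha hab _))]

theorem finite_bound (m : ℕ) (F : ℝ → ℝ) (hF : Antitone F) (hF0 : ∀ t, 0 ≤ F t)
    (r : ℕ → ℝ) (hr0 : ∀ j, 0 ≤ r j) (hrm : Monotone r) (n : ℕ) :
    ((m + 1 : ℕ) : ENNReal)
        * ∫⁻ t in Set.Ioc (r 0) (r n), ENNReal.ofReal (t ^ m) * ENNReal.ofReal (F t)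
      ≤ ENNReal.ofReal (∑ j ∈ Finset.range n,
          F (r j) * ((r (j + 1)) ^ (m + 1) - (r j) ^ (m + 1))) := by
  have hterm : ∀ j, 0 ≤ F (r j) * ((r (j + 1)) ^ (m + 1) - (r j) ^ (m + 1)) := fun j =>
    mul_nonneg (hF0 _) (sub_nonneg.mpr (pow_le_pow_left₀ (hr0 j) (hrm (Nat.le_succ j)) _))
  induction n with
  | zero => simp
  | succ n ih =>
    have hU : Set.Ioc (r 0) (r (n + 1)) = Set.Ioc (r 0) (r n) ∪ Set.Ioc (r n) (r (n + 1)) :=
      (Set.Ioc_union_Ioc_eq_Ioc (hrm (Nat.zero_le n)) (hrm (Nat.le_succ n))).symm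
    rw [hU, Finset.sum_range_succ,
      ENNReal.ofReal_add (Finset.sum_nonneg (fun j _ => hterm j)) (hterm n)]
    calc ((m + 1 : ℕ) : ENNReal) * ∫⁻ t in Set.Ioc (r 0) (r n) ∪ Set.Ioc (r n) (r (n + 1)),
            ENNReal.ofReal (t ^ m) * ENNReal.ofReal (F t)
        ≤ ((m + 1 : ℕ) : ENNReal)
          * ((∫⁻ t in Set.Ioc (r 0) (r n), ENNReal.ofReal (t ^ m) * ENNReal.ofReal (F t))
            + ∫⁻ t in Set.Ioc (r n) (r (n + 1)),
                ENNReal.ofReal (t ^ m) * ENNReal.ofReal (F t)) := by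
          gcongr
          exact lintegral_union_le _ _ _
      _ = ((m + 1 : ℕ) : ENNReal)
            * (∫⁻ t in Set.Ioc (r 0) (r n), ENNReal.ofReal (t ^ m) * ENNReal.ofReal (F t))
          + ((m + 1 : ℕ) : ENNReal) * ∫⁻ t in Set.Ioc (r n) (r (n + 1)),
                ENNReal.ofReal (t ^ m) * ENNReal.ofReal (F t) := mul_add _ _ _
      _ ≤ _ := add_le_add ih
          (interval_bound m F hF (r n) (r (n + 1)) (hr0 n) (hrm (Nat.le_succ n)))

theorem geom_bound (m : ℕ) (F : ℝ → ℝ) (hF : Antitone F) (hF0 : ∀ t, 0 ≤ F t)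
    (hlim : Filter.Tendsto F Filter.atTop (nhds 0)) (R : ENNReal) (ρ0 q : ℝ) (hρ0 : 0 < ρ0)
    (hq : 1 < q)
    (hR : ∀ n, ENNReal.ofReal (∑ j ∈ Finset.range n,
      (ρ0 * q ^ j) ^ (m + 1) * (F (ρ0 * q ^ j) - F (ρ0 * q ^ (j + 1)))) ≤ R) :
    ((m + 1 : ℕ) : ENNReal)
        * ∫⁻ t in Set.Ioi ρ0, ENNReal.ofReal (t ^ m) * ENNReal.ofReal (F t)
      ≤ ENNReal.ofReal (q ^ (m + 1)) * R := by
  have hq0 : 0 < q := lt_trans zero_lt_one hq
  have hr0 : ∀ j : ℕ, 0 ≤ ρ0 * q ^ j := fun j => (mul_pos hρ0 (pow_pos hq0 j)).le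
  have hrm : Monotone (fun j : ℕ => ρ0 * q ^ j) := by
    refine monotone_nat_of_le_succ (fun j => ?_)
    exact mul_le_mul_of_nonneg_left (pow_le_pow_right₀ hq.le (Nat.le_succ j)) hρ0.le
  have hrt : Filter.Tendsto (fun j : ℕ => ρ0 * q ^ j) Filter.atTop Filter.atTop :=
    (tendsto_pow_atTop_atTop_of_one_lt hq).const_mul_atTop hρ0
  have hft : Filter.Tendsto (fun j : ℕ => F (ρ0 * q ^ j)) Filter.atTop (nhds 0) :=
    hlim.comp hrt
  have hfa : Antitone (fun j : ℕ => F (ρ0 * q ^ j)) := fun i j hij => hF (hrm hij)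
  have hc : 1 ≤ q ^ (m + 1) := one_le_pow₀ hq.le
  have hAs : ∀ j : ℕ, (ρ0 * q ^ (j + 1)) ^ (m + 1) = q ^ (m + 1) * (ρ0 * q ^ j) ^ (m + 1) := by
    intro j
    ring
  -- the union
  have hU : Set.Ioi ρ0 = ⋃ n : ℕ, Set.Ioc (ρ0 * q ^ 0) (ρ0 * q ^ n) := by
    ext t
    simp only [Set.mem_Ioi, Set.mem_iUnion, Set.mem_Ioc, pow_zero, mul_one]
    constructor
    · intro ht
      obtain ⟨n, hn⟩ := (hrt.eventually_ge_atTop t).exists
      exact ⟨n, ht, hn⟩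
    · rintro ⟨n, ht, _⟩
      exact ht
  have hdir : Directed (· ⊆ ·) (fun n : ℕ => Set.Ioc (ρ0 * q ^ 0) (ρ0 * q ^ n)) := by
    refine Monotone.directed_le (fun i j hij => ?_)
    exact Set.Ioc_subset_Ioc_right (hrm hij)
  rw [hU, setLIntegral_iUnion_of_directed _ hdir, ENNReal.mul_iSup]
  refine iSup_le (fun n => ?_)
  refine le_trans (finite_bound m F hF hF0 (fun j : ℕ => ρ0 * q ^ j) hr0 hrm n) ?_
  -- bound for every large N, then let N tend to infinity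
  have hbound : ∀ N, n ≤ N →
      ENNReal.ofReal (∑ j ∈ Finset.range n,
          F (ρ0 * q ^ j) * ((ρ0 * q ^ (j + 1)) ^ (m + 1) - (ρ0 * q ^ j) ^ (m + 1)))
        ≤ ENNReal.ofReal (q ^ (m + 1)) * R
          + ENNReal.ofReal ((ρ0 * q ^ n) ^ (m + 1) * F (ρ0 * q ^ N)) := by
    intro N hnN
    have hreal := real_bound (fun j : ℕ => (ρ0 * q ^ j) ^ (m + 1)) (fun j : ℕ => F (ρ0 * q ^ j))
      (q ^ (m + 1)) hc (fun j => pow_nonneg (hr0 j) _) hAs hfa (fun j => hF0 _) n N hnN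
    refine le_trans (ENNReal.ofReal_le_ofReal hreal) ?_
    refine le_trans (ENNReal.ofReal_add_le) ?_
    gcongr
    rw [ENNReal.ofReal_mul (le_trans zero_le_one hc)]
    gcongr
    exact hR N
  have hT : Filter.Tendsto (fun N : ℕ => ENNReal.ofReal (q ^ (m + 1)) * R
      + ENNReal.ofReal ((ρ0 * q ^ n) ^ (m + 1) * F (ρ0 * q ^ N))) Filter.atTop
      (nhds (ENNReal.ofReal (q ^ (m + 1)) * R + 0)) := by
    refine tendsto_const_nhds.add ?_
    have h1 : Filter.Tendsto (fun N : ℕ => (ρ0 * q ^ n) ^ (m + 1) * F (ρ0 * q ^ N)) Filter.atTop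
        (nhds ((ρ0 * q ^ n) ^ (m + 1) * 0)) := tendsto_const_nhds.mul hft
    rw [mul_zero] at h1
    have h2 := ENNReal.tendsto_ofReal h1
    rwa [ENNReal.ofReal_zero] at h2
  rw [add_zero] at hT
  exact ge_of_tendsto hT (Filter.eventually_atTop.2 ⟨n, hbound⟩)

theorem core (m : ℕ) (F : ℝ → ℝ) (hF : Antitone F) (hF0 : ∀ t, 0 ≤ F t)
    (hlim : Filter.Tendsto F Filter.atTop (nhds 0)) (R : ENNReal)
    (hR : ∀ (ρ0 q : ℝ), 0 < ρ0 → 1 < q → ∀ n, ENNReal.ofReal (∑ j ∈ Finset.range n,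
      (ρ0 * q ^ j) ^ (m + 1) * (F (ρ0 * q ^ j) - F (ρ0 * q ^ (j + 1)))) ≤ R) :
    ((m + 1 : ℕ) : ENNReal)
        * ∫⁻ t in Set.Ioi (0 : ℝ), ENNReal.ofReal (t ^ m) * ENNReal.ofReal (F t) ≤ R := by
  -- first: every fixed lower end
  have hfix : ∀ ρ0 : ℝ, 0 < ρ0 → ((m + 1 : ℕ) : ENNReal)
      * ∫⁻ t in Set.Ioi ρ0, ENNReal.ofReal (t ^ m) * ENNReal.ofReal (F t) ≤ R := by
    intro ρ0 hρ0
    have hq : ∀ i : ℕ, (1 : ℝ) < 1 + 1 / ((i : ℝ) + 1) := fun i => by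
      have : (0 : ℝ) < 1 / ((i : ℝ) + 1) := by positivity
      linarith
    have hall : ∀ i : ℕ, ((m + 1 : ℕ) : ENNReal)
        * ∫⁻ t in Set.Ioi ρ0, ENNReal.ofReal (t ^ m) * ENNReal.ofReal (F t)
        ≤ ENNReal.ofReal ((1 + 1 / ((i : ℝ) + 1)) ^ (m + 1)) * R := fun i =>
      geom_bound m F hF hF0 hlim R ρ0 _ hρ0 (hq i) (hR ρ0 _ hρ0 (hq i))
    have h1 : Filter.Tendsto (fun i : ℕ => (1 : ℝ) + 1 / ((i : ℝ) + 1)) Filter.atTop
        (nhds (1 + 0)) := tendsto_const_nhds.add tendsto_one_div_add_atTop_nhds_zero_nat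
    have h2 := ENNReal.tendsto_ofReal (h1.pow (m + 1))
    rw [add_zero, one_pow, ENNReal.ofReal_one] at h2
    have h3 := ENNReal.Tendsto.mul_const (b := R) h2 (Or.inl one_ne_zero)
    rw [one_mul] at h3
    exact ge_of_tendsto' h3 hall
  -- then let the lower end tend to zero
  have hU : Set.Ioi (0 : ℝ) = ⋃ i : ℕ, Set.Ioi (1 / ((i : ℝ) + 1)) := by
    ext t
    simp only [Set.mem_Ioi, Set.mem_iUnion]
    constructor
    · intro ht
      obtain ⟨i, hi⟩ := exists_nat_one_div_lt ht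
      exact ⟨i, hi⟩
    · rintro ⟨i, hi⟩
      have : (0 : ℝ) < 1 / ((i : ℝ) + 1) := by positivity
      linarith
  have hdir : Directed (· ⊆ ·) (fun i : ℕ => Set.Ioi (1 / ((i : ℝ) + 1))) := by
    refine Monotone.directed_le (fun i j hij => ?_)
    refine Set.Ioi_subset_Ioi ?_
    have hi : (0 : ℝ) < (i : ℝ) + 1 := by positivity
    have hij' : (i : ℝ) + 1 ≤ (j : ℝ) + 1 := by
      have : (i : ℝ) ≤ (j : ℝ) := Nat.cast_le.mpr hij
      linarith
    exact one_div_le_one_div_of_le hi hij'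
  rw [hU, setLIntegral_iUnion_of_directed _ hdir, ENNReal.mul_iSup]
  refine iSup_le (fun i => hfix _ (by positivity))

theorem geomsum_le_radialVar (d : ℕ) (F : ℝ → ℝ) (hF : Antitone F) (hF0 : ∀ t, 0 ≤ F t)
    (ρ0 q : ℝ) (hρ0 : 0 < ρ0) (hq : 1 < q) (n : ℕ) :
    ENNReal.ofReal (∑ j ∈ Finset.range n,
        (ρ0 * q ^ j) ^ (d - 1) * (F (ρ0 * q ^ j) - F (ρ0 * q ^ (j + 1))))
      ≤ radialVar d (fun ρ => ENNReal.ofReal (F ρ)) := by
  have hq0 : 0 < q := lt_trans zero_lt_one hq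
  have hρ : StrictMono (fun j : Fin (n + 1) => ρ0 * q ^ (j : ℕ))
      ∧ 0 < (fun j : Fin (n + 1) => ρ0 * q ^ (j : ℕ)) 0 := by
    refine ⟨fun i j hij => ?_, ?_⟩
    · exact mul_lt_mul_of_pos_left (pow_lt_pow_right₀ hq hij) hρ0
    · show 0 < ρ0 * q ^ ((0 : Fin (n + 1)) : ℕ)
      exact mul_pos hρ0 (pow_pos hq0 _)
  unfold radialVar
  refine le_trans ?_ (le_iSup_of_le n (le_iSup_of_le (fun j : Fin (n + 1) => ρ0 * q ^ (j : ℕ))
    (le_iSup_of_le hρ le_rfl)))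
  have hnn : ∀ j : ℕ, 0 ≤ (ρ0 * q ^ j) ^ (d - 1) * (F (ρ0 * q ^ j) - F (ρ0 * q ^ (j + 1))) := by
    intro j
    refine mul_nonneg (pow_nonneg (mul_pos hρ0 (pow_pos hq0 j)).le _) (sub_nonneg.mpr (hF ?_))
    exact mul_le_mul_of_nonneg_left (pow_le_pow_right₀ hq.le (Nat.le_succ j)) hρ0.le
  rw [ENNReal.ofReal_sum_of_nonneg (fun j _ => hnn j)]
  rw [← Fin.sum_univ_eq_sum_range (fun j : ℕ => ENNReal.ofReal
    ((ρ0 * q ^ j) ^ (d - 1) * (F (ρ0 * q ^ j) - F (ρ0 * q ^ (j + 1))))) n]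
  refine Finset.sum_le_sum (fun j _ => ?_)
  rw [ENNReal.ofReal_mul (pow_nonneg (mul_pos hρ0 (pow_pos hq0 _)).le _),
    ENNReal.ofReal_sub _ (hF0 _)]
  exact le_of_eq rfl

theorem integral_le_radialVar {d : ℕ} (hd : 2 ≤ d) (F : ℝ → ℝ) (hF : Antitone F)
    (hF0 : ∀ t, 0 ≤ F t) (hlim : Filter.Tendsto F Filter.atTop (nhds 0)) :
    ((d - 1 : ℕ) : ENNReal) *
        ∫⁻ ρ in Set.Ioi (0 : ℝ), ENNReal.ofReal (ρ ^ (d - 2)) * ENNReal.ofReal (F ρ)
      ≤ radialVar d (fun ρ => ENNReal.ofReal (F ρ)) := by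
  obtain ⟨m, rfl⟩ : ∃ m, d = m + 2 := ⟨d - 2, by omega⟩
  have h1 : m + 2 - 1 = m + 1 := by omega
  have h2 : m + 2 - 2 = m := by omega
  rw [h1, h2]
  refine core m F hF hF0 hlim _ (fun ρ0 q hρ0 hq n => ?_)
  have h := geomsum_le_radialVar (m + 2) F hF hF0 ρ0 q hρ0 hq n
  rwa [h1] at h

end Vale.Agent.Lib.P137.H59
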